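import Vale.Agent.P211.Alg.SelfDual.Frame
import Vale.Agent.P211.Alg.Spectral.General

/-!
# P211: nonnegative sectional curvature bounds the sum of the least Weyl eigenvalues

The sum of a self-dual and an anti-self-dual complex structure is the two-form of a plane.
-/

open Matrix

namespace Vale.Agent.P211.SelfDual

noncomputable section

theorem sum_wedge_sec {R : Ten4} (hR : IsCurvTen R) (e f : Fin 4 → ℝ) :
    flatVec (vecMulVec f e - vecMulVec e f) ⬝ᵥ
        flat R *ᵥ flatVec (vecMulVec f e - vecMulVec e f) =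
      4 * ∑ i, ∑ j, ∑ k, ∑ l, R i j k l * e i * f j * e k * f l := by
  simp only [flatVec, flat, comp, dotProduct, mulVec, of_apply, Fintype.sum_prod_type,
    Matrix.sub_apply, vecMulVec_apply]
  have h12 : ∀ g : Fin 4 → Fin 4 → ℝ, ∑ i, ∑ j, (f i * e j - e i * f j) *
      ∑ k, ∑ l, R i j k l * g k l = -2 * ∑ i, ∑ j, e i * f j * ∑ k, ∑ l, R i j k l * g k l := by
    intro g
    have hswap : ∑ i, ∑ j, f i * e j * ∑ k, ∑ l, R i j k l * g k l =
        -∑ i, ∑ j, e i * f j * ∑ k, ∑ l, R i j k l * g k l := by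
      rw [Finset.sum_comm]
      simp only [← Finset.sum_neg_distrib, Finset.mul_sum]
      refine Finset.sum_congr rfl fun i _ => Finset.sum_congr rfl fun j _ =>
        Finset.sum_congr rfl fun k _ => Finset.sum_congr rfl fun l _ => ?_
      rw [hR.anti12 i j k l]
      ring
    simp only [sub_mul, Finset.sum_sub_distrib, hswap]
    ring
  have h34 : ∀ i j, ∑ k, ∑ l, R i j k l * (f k * e l - e k * f l) =
      -2 * ∑ k, ∑ l, R i j k l * (e k * f l) := by
    intro i j
    have hswap : ∑ k, ∑ l, R i j k l * (f k * e l) = -∑ k, ∑ l, R i j k l * (e k * f l) := by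
      rw [Finset.sum_comm]
      simp only [← Finset.sum_neg_distrib]
      refine Finset.sum_congr rfl fun k _ => Finset.sum_congr rfl fun l _ => ?_
      rw [hR.anti34 i j k l]
      ring
    simp only [mul_sub, Finset.sum_sub_distrib, hswap]
    ring
  rw [h12]
  simp only [h34, Finset.mul_sum]
  exact Finset.sum_congr rfl fun i _ => Finset.sum_congr rfl fun j _ =>
    Finset.sum_congr rfl fun k _ => Finset.sum_congr rfl fun l _ => by ring

theorem comb_mulVec_dot {J : Fin 3 → M4} (hJ : Spectral.IsTriple J) (u : Fin 3 → ℝ)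
    (a : Fin 3) (e : Fin 4 → ℝ) :
    (J a *ᵥ e) ⬝ᵥ ((∑ b, u b • J b) *ᵥ e) = u a * (e ⬝ᵥ e) := by
  have hz : ∀ b, b ≠ a → (J a *ᵥ e) ⬝ᵥ (J b *ᵥ e) = 0 := by
    intro b hb
    have hskew : (J a * J b).transpose = -(J a * J b) := by
      fin_cases a <;> fin_cases b <;>
        simp_all [hJ.mul01, hJ.mul12, hJ.mul20, hJ.mul10, hJ.mul21, hJ.mul02, hJ.skew]
    have h0 : e ⬝ᵥ (J a * J b) *ᵥ e = 0 := by
      have h1 := dotProduct_mulVec e (J a * J b) e
      rw [← mulVec_transpose, hskew, neg_mulVec, neg_dotProduct, dotProduct_comm ((J a * J b) *ᵥ e)]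
        at h1
      linarith
    rw [dotProduct_comm, dotProduct_mulVec, ← mulVec_transpose, mulVec_mulVec, hJ.skew,
      Matrix.neg_mul, neg_mulVec, neg_dotProduct, dotProduct_comm, h0, neg_zero]
  have hs : (J a *ᵥ e) ⬝ᵥ (J a *ᵥ e) = e ⬝ᵥ e := by
    simpa only [dotProduct, pow_two] using hJ.sum_sq_mulVec a e
  rw [sum_mulVec, dotProduct_sum]
  simp only [smul_mulVec, dotProduct_smul, smul_eq_mul]
  rw [Finset.sum_eq_single a (fun b _ hb => by rw [hz b hb, mul_zero]) (by simp), hs]

theorem pair_vecMulVec (J : M4) (hJ : J.transpose = -J) (e f : Fin 4 → ℝ) :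
    pair J (vecMulVec f e - vecMulVec e f) = 2 * ((J *ᵥ e) ⬝ᵥ f) := by
  have h := skew_apply hJ
  have hswap : ∑ i, ∑ j, J i j * (e i * f j) = -∑ i, ∑ j, J i j * (f i * e j) := by
    rw [Finset.sum_comm]
    simp only [← Finset.sum_neg_distrib]
    refine Finset.sum_congr rfl fun i _ => Finset.sum_congr rfl fun j _ => ?_
    rw [h i j]
    ring
  simp only [pair, Matrix.sub_apply, vecMulVec_apply, mul_sub, Finset.sum_sub_distrib, hswap]
  simp only [sub_neg_eq_add, ← two_mul, dotProduct, mulVec, Finset.mul_sum, Finset.sum_mul]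
  exact Finset.sum_congr rfl fun i _ => Finset.sum_congr rfl fun j _ => by ring

theorem quad_block (R : Ten4) (J K : Fin 3 → M4) (u v : Fin 3 → ℝ) :
    flatVec (∑ a, u a • J a) ⬝ᵥ flat R *ᵥ flatVec (∑ b, v b • K b) =
      8 * (u ⬝ᵥ block R J K *ᵥ v) := by
  have hq : ∀ M : M3, u ⬝ᵥ M *ᵥ v = ∑ a, ∑ b, u a * v b * M a b := fun M => by
    simp only [dotProduct, mulVec, Finset.mul_sum]
    exact Finset.sum_congr rfl fun i _ => Finset.sum_congr rfl fun j _ => by ring
  rw [hq, flatVec_sum_smul, flatVec_sum_smul]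
  simp only [block_eq_flat, mulVec_sum, mulVec_smul, sum_dotProduct, dotProduct_sum,
    smul_dotProduct, dotProduct_smul, smul_eq_mul, Finset.mul_sum]
  rw [Finset.sum_comm]
  exact Finset.sum_congr rfl fun i _ => Finset.sum_congr rfl fun j _ => by ring

theorem exists_top_vector {W : M3} {x : ℝ} (hx : Spectral.IsTop W x) :
    ∃ u : Fin 3 → ℝ, u ⬝ᵥ u = 1 ∧ W *ᵥ u = -x • u := by
  obtain ⟨z, hz, hker⟩ := exists_mulVec_eq_zero_iff.2 hx.2
  have hpos : 0 < z ⬝ᵥ z := by
    refine lt_of_le_of_ne (Finset.sum_nonneg fun i _ => mul_self_nonneg _) (Ne.symm ?_)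
    exact fun h => hz (dotProduct_self_eq_zero.1 h)
  refine ⟨(Real.sqrt (z ⬝ᵥ z))⁻¹ • z, ?_, ?_⟩
  · rw [smul_dotProduct, dotProduct_smul, smul_eq_mul, smul_eq_mul, ← mul_assoc, ← mul_inv,
      Real.mul_self_sqrt hpos.le, inv_mul_cancel₀ hpos.ne']
  · rw [add_mulVec, smul_mulVec, one_mulVec] at hker
    rw [mulVec_smul, eq_neg_of_add_eq_zero_left hker, smul_neg, neg_smul, smul_comm]

/-- Nonnegative sectional curvature gives `x + y ≤ 2`. -/
theorem top_add_top_le {R : Ten4} (hR : IsCurvTen R)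
    (hric : ∀ i k, ricTen R i k = 3 * (1 : M4) i k)
    (hsec : ∀ e f : Fin 4 → ℝ,
      0 ≤ ∑ i, ∑ j, ∑ k, ∑ l, R i j k l * e i * f j * e k * f l)
    {x y : ℝ} (hx : Spectral.IsTop (block R Jp Jp - 1) x)
    (hy : Spectral.IsTop (block R Jm Jm - 1) y) : x + y ≤ 2 := by
  obtain ⟨u, hu, hWu⟩ := exists_top_vector hx
  obtain ⟨v, hv, hWv⟩ := exists_top_vector hy
  have hpm := ((ricTen_eq_three_iff hR).1 hric).1
  set A := ∑ a, u a • Jp a with hA
  set B := ∑ b, v b • Jm b with hB
  -- the two structures commute and square to minus one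
  have hsqA : A * A = -1 := by
    simp only [hA, Spectral.comb_mul isTriple_Jp]
    simp only [dotProduct, Fin.sum_univ_three] at hu
    rw [hu]
    module
  have hsqB : B * B = -1 := by
    simp only [hB, Spectral.comb_mul isTriple_Jm]
    simp only [dotProduct, Fin.sum_univ_three] at hv
    rw [hv]
    module
  have hAB : A * B = B * A := by
    simp only [hA, hB, Finset.sum_mul, Finset.mul_sum, Matrix.smul_mul, Matrix.mul_smul,
      Jp_mul_Jm, smul_smul]
    rw [Finset.sum_comm]
    exact Finset.sum_congr rfl fun i _ => Finset.sum_congr rfl fun j _ => by rw [mul_comm]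
  have hne : A - B ≠ 0 := by
    intro h
    have h1 : pair A A = pair A B := by rw [sub_eq_zero.1 h]
    have h2 : pair A B = 0 := by
      rw [hB, pair_sum_right]
      refine Finset.sum_eq_zero fun b _ => ?_
      rw [pair_comm, hA, pair_sum_right]
      simp [pair_comm _ (Jp _), pair_Jp_Jm]
    have h3 : pair A A = 4 := by
      rw [pair_eq_trace]
      have hs : A.transpose = -A := by simp [hA, transpose_sum, isTriple_Jp.skew]
      simp [hs, hsqA, trace_one]
    linarith
  obtain ⟨m, hm⟩ : ∃ m, (A - B) *ᵥ Pi.single m 1 ≠ 0 := by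
    by_contra hcon
    push Not at hcon
    exact hne (ext_of_mulVec_single fun m => by rw [hcon m, zero_mulVec])
  set e := (A - B) *ᵥ Pi.single m 1 with he
  have hker : A *ᵥ e + B *ᵥ e = 0 := by
    rw [he, ← add_mulVec, mulVec_mulVec, Matrix.add_mul, Matrix.mul_sub, Matrix.mul_sub, hsqA,
      hsqB, hAB, show (-1 - B * A + (B * A - -1) : M4) = 0 by abel, zero_mulVec]
  have hee : 0 < e ⬝ᵥ e :=
    lt_of_le_of_ne (Finset.sum_nonneg fun i _ => mul_self_nonneg _)
      (Ne.symm fun h => hm (dotProduct_self_eq_zero.1 h))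
  set f := A *ᵥ e with hf
  have hfB : f = -(B *ᵥ e) := eq_neg_of_add_eq_zero_left hker
  set ω := vecMulVec f e - vecMulVec e f with hω
  have hωs : ω.transpose = -ω := by
    simp [hω, transpose_sub, transpose_vecMulVec]
  have hωeq : ω = (e ⬝ᵥ e / 2) • (A - B) := by
    have c1 : ∀ a, pair (Jp a) ω / 4 = e ⬝ᵥ e / 2 * u a := fun a => by
      rw [hω, pair_vecMulVec _ (isTriple_Jp.skew a), hf, hA, comb_mulVec_dot isTriple_Jp]
      ring
    have c2 : ∀ a, pair (Jm a) ω / 4 = -(e ⬝ᵥ e / 2 * v a) := fun a => by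
      rw [hω, pair_vecMulVec _ (isTriple_Jm.skew a), hfB, hB, dotProduct_neg,
        comb_mulVec_dot isTriple_Jm]
      ring
    rw [decomp hωs]
    simp only [c1, c2, hA, hB, smul_sub, Finset.smul_sum, smul_smul, neg_smul,
      ← sub_eq_add_neg, Finset.sum_sub_distrib]
  have hq := sum_wedge_sec hR e f
  rw [← hω, hωeq] at hq
  have hflat : flatVec ((e ⬝ᵥ e / 2) • (A - B)) = (e ⬝ᵥ e / 2) • (flatVec A - flatVec B) := by
    funext p
    simp [flatVec]
  rw [hflat, mulVec_smul, smul_dotProduct, dotProduct_smul, mulVec_sub, sub_dotProduct,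
    dotProduct_sub, dotProduct_sub, hA, hB, quad_block, quad_block, quad_block, quad_block] at hq
  have hmp : block R Jm Jp = 0 := by
    ext a b
    have h : block R Jm Jp a b = block R Jp Jm b a := by
      have hs : (flat R).transpose = flat R := by
        ext p q
        exact hR.comp_comm p q
      rw [block_eq_flat, block_eq_flat, dotProduct_mulVec, ← mulVec_transpose, hs, dotProduct_comm]
    rw [h, hpm]
    rfl
  have hp1 : block R Jp Jp *ᵥ u = (1 - x) • u := by
    have h := hWu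
    rw [sub_mulVec, one_mulVec, sub_eq_iff_eq_add] at h
    rw [h, sub_smul, one_smul, neg_smul]
    abel
  have hm1 : block R Jm Jm *ᵥ v = (1 - y) • v := by
    have h := hWv
    rw [sub_mulVec, one_mulVec, sub_eq_iff_eq_add] at h
    rw [h, sub_smul, one_smul, neg_smul]
    abel
  rw [hpm, hmp, hp1, hm1, zero_mulVec, zero_mulVec] at hq
  simp only [dotProduct_smul, hu, hv, dotProduct_zero, smul_eq_mul, mul_one, mul_zero,
    sub_zero, zero_sub, sub_neg_eq_add] at hq
  have hs := hsec e f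
  nlinarith [mul_pos hee hee]

end

end Vale.Agent.P211.SelfDual
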